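import Mathlib
import Crest.Agent.BoxFlow.Defs

/-!
# S0170, package W8a (helper1): basic facts about `Reach` and separation of disjoint boxes
-/

set_option autoImplicit false

open Crest.AnalysisR.BoxFlow
open Crest.Agent.BoxFlow

namespace Crest.Agent.Helper1

variable {n : ℕ}

theorem conf_ext {X Y : Conf n} (hc : X.c = Y.c) (hh : X.h = Y.h) : X = Y := by
  cases X; cases Y; simp_all

theorem pos_translate {X : Conf n} (hX : X.Pos) (i : Fin n) (a : Fin 3) (d : ℚ) :
    (X.translate i a d).Pos := hX

theorem pos_squeeze {X : Conf n} (hX : X.Pos) (i : Fin n) (a b : Fin 3) {r : ℚ} (hr : 0 < r) :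
    (X.squeeze i a b r).Pos := by
  intro i' j
  unfold Conf.squeeze
  simp only
  by_cases hi : i' = i
  · subst hi
    rw [Function.update_self]
    by_cases hb : j = b
    · subst hb; rw [Function.update_self]; exact div_pos (hX _ _) hr
    · rw [Function.update_of_ne hb]
      by_cases ha : j = a
      · subst ha; rw [Function.update_self]; exact mul_pos hr (hX _ _)
      · rw [Function.update_of_ne ha]; exact hX _ _
  · rw [Function.update_of_ne hi]; exact hX _ _

theorem pos_of_reach {X Y : Conf n} (h : Reach X Y) (hX : X.Pos) : Y.Pos := by
  induction h with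
  | refl X => exact hX
  | translate X i a d hpos hv hZ ih => exact ih (pos_translate hpos i a d)
  | squeeze X i a b r hpos hab hr hv hZ ih => exact ih (pos_squeeze hpos i a b hr)

theorem reach_trans {X Y Z : Conf n} (h1 : Reach X Y) (h2 : Reach Y Z) : Reach X Z := by
  induction h1 with
  | refl X => exact h2
  | translate X i a d hpos hv hZ ih => exact Reach.translate X i a d hpos hv (ih h2)
  | squeeze X i a b r hpos hab hr hv hZ ih => exact Reach.squeeze X i a b r hpos hab hr hv (ih h2)

/-- A single valid translation as a `Reach`. -/
theorem reach_translate (X : Conf n) (i : Fin n) (a : Fin 3) (d : ℚ) (hpos : X.Pos)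
    (hv : TransValid X i a d) : Reach X (X.translate i a d) :=
  Reach.translate X i a d hpos hv (Reach.refl _)

/-- A single valid squeeze as a `Reach`. -/
theorem reach_squeeze (X : Conf n) (i : Fin n) (a b : Fin 3) (r : ℚ) (hpos : X.Pos) (hab : a ≠ b)
    (hr : 0 < r) (hv : SqValid X i a b r) : Reach X (X.squeeze i a b r) :=
  Reach.squeeze X i a b r hpos hab hr hv (Reach.refl _)

theorem translate_translate_neg (X : Conf n) (i : Fin n) (a : Fin 3) (d : ℚ) :
    (X.translate i a d).translate i a (-d) = X := by
  apply conf_ext
  · simp only [Conf.translate, Function.update_self, Function.update_idem]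
    have : X.c i a + d + -d = X.c i a := by ring
    rw [this, Function.update_eq_self, Function.update_eq_self]
  · rfl

theorem transValid_neg {X : Conf n} {i : Fin n} {a : Fin 3} {d : ℚ} (hv : TransValid X i a d) :
    TransValid (X.translate i a d) i a (-d) := by
  intro i' hi'
  have h := hv i' hi'
  have hc : transHullC (X.translate i a d) i a (-d) = transHullC X i a d := by
    simp only [transHullC, Conf.translate, Function.update_self, Function.update_idem]
    congr 1; ring
  have hh : transHullH (X.translate i a d) i a (-d) = transHullH X i a d := by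
    simp only [transHullH, Conf.translate, abs_neg]
  have hc' : (X.translate i a d).c i' = X.c i' := by
    simp only [Conf.translate]; rw [Function.update_of_ne hi']
  rw [hc, hh, hc']
  exact h

theorem squeeze_squeeze_inv (X : Conf n) (i : Fin n) {a b : Fin 3} (hab : a ≠ b) {r : ℚ}
    (hr : 0 < r) : (X.squeeze i a b r).squeeze i a b r⁻¹ = X := by
  apply conf_ext
  · rfl
  · simp only [Conf.squeeze, Function.update_self, Function.update_idem]
    have hr0 : r ≠ 0 := hr.ne'
    have e1 : Function.update (Function.update (X.h i) a (r * X.h i a)) b (X.h i b / r) a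
        = r * X.h i a := by
      rw [Function.update_of_ne hab, Function.update_self]
    have e2 : X.h i b / r / r⁻¹ = X.h i b := by field_simp
    have e3 : r⁻¹ * (r * X.h i a) = X.h i a := by field_simp
    rw [e1, e2, e3]
    have e4 : Function.update (Function.update (Function.update (Function.update (X.h i) a
        (r * X.h i a)) b (X.h i b / r)) a (X.h i a)) b (X.h i b) = X.h i := by
      funext j
      by_cases hb : j = b
      · subst hb; rw [Function.update_self]
      · rw [Function.update_of_ne hb]
        by_cases ha : j = a
        · subst ha; rw [Function.update_self]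
        · rw [Function.update_of_ne ha, Function.update_of_ne hb, Function.update_of_ne ha]
    rw [e4, Function.update_eq_self]

theorem sqValid_inv {X : Conf n} {i : Fin n} {a b : Fin 3} (hab : a ≠ b) {r : ℚ} (hr : 0 < r)
    (hv : SqValid X i a b r) : SqValid (X.squeeze i a b r) i a b r⁻¹ := by
  intro i' hi'
  have h := hv i' hi'
  have hr0 : r ≠ 0 := hr.ne'
  have hh : sqHullH (X.squeeze i a b r) i a b r⁻¹ = sqHullH X i a b r := by
    funext j
    simp only [sqHullH, Conf.squeeze, Function.update_self]
    by_cases hb : j = b
    · subst hb
      simp only [Function.update_self]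
      rw [max_comm]; congr 1; field_simp
    · by_cases ha : j = a
      · subst ha
        simp only [Function.update_of_ne hb, Function.update_self]
        rw [max_comm]; congr 1; field_simp
      · simp only [Function.update_of_ne hb, Function.update_of_ne ha]
  have hh' : (X.squeeze i a b r).h i' = X.h i' := by
    simp only [Conf.squeeze]; rw [Function.update_of_ne hi']
  rw [hh, hh']
  exact h

theorem reach_symm {X Y : Conf n} (h : Reach X Y) : Reach Y X := by
  induction h with
  | refl X => exact Reach.refl X
  | translate X i a d hpos hv hZ ih =>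
    refine reach_trans ih ?_
    have := reach_translate (X.translate i a d) i a (-d) (pos_translate hpos i a d)
      (transValid_neg hv)
    rwa [translate_translate_neg] at this
  | squeeze X i a b r hpos hab hr hv hZ ih =>
    refine reach_trans ih ?_
    have := reach_squeeze (X.squeeze i a b r) i a b r⁻¹ (pos_squeeze hpos i a b hr) hab
      (inv_pos.mpr hr) (sqValid_inv hab hr hv)
    rwa [squeeze_squeeze_inv X i hab hr] at this

/-- Disjoint closed rational boxes with positive half-widths are strictly separated along an axis. -/
theorem sep_of_disjoint (c h c' h' : Fin 3 → ℚ) (hh : ∀ j, 0 < h j) (hh' : ∀ j, 0 < h' j)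
    (hd : Disjoint (box c h) (box c' h')) : Sep c h c' h' := by
  by_contra hns
  unfold Crest.Agent.BoxFlow.Sep at hns
  simp only [not_exists, not_lt] at hns
  -- common point: weighted average of the centres
  let x : Fin 3 → ℝ := fun j => (((c j * h' j + c' j * h j) / (h j + h' j) : ℚ) : ℝ)
  have hpos : ∀ j, 0 < h j + h' j := fun j => add_pos (hh j) (hh' j)
  have h1 : x ∈ box c h := by
    intro j
    have e : x j - (c j : ℝ) = ((h j * ((c' j - c j) / (h j + h' j)) : ℚ) : ℝ) := by
      simp only [x]
      rw [← Rat.cast_sub]
      congr 1
      have := (hpos j).ne'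
      field_simp
      ring
    rw [e, ← Rat.cast_abs]
    have : |h j * ((c' j - c j) / (h j + h' j))| ≤ h j := by
      rw [abs_mul, abs_of_pos (hh j), abs_div, abs_of_pos (hpos j)]
      have : |c' j - c j| / (h j + h' j) ≤ 1 := by
        rw [div_le_one (hpos j), abs_sub_comm]; exact hns j
      calc h j * (|c' j - c j| / (h j + h' j)) ≤ h j * 1 :=
            mul_le_mul_of_nonneg_left this (hh j).le
        _ = h j := mul_one _
    exact_mod_cast this
  have h2 : x ∈ box c' h' := by
    intro j
    have e : x j - (c' j : ℝ) = ((h' j * ((c j - c' j) / (h j + h' j)) : ℚ) : ℝ) := by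
      simp only [x]
      rw [← Rat.cast_sub]
      congr 1
      have := (hpos j).ne'
      field_simp
      ring
    rw [e, ← Rat.cast_abs]
    have : |h' j * ((c j - c' j) / (h j + h' j))| ≤ h' j := by
      rw [abs_mul, abs_of_pos (hh' j), abs_div, abs_of_pos (hpos j)]
      have : |c j - c' j| / (h j + h' j) ≤ 1 := by
        rw [div_le_one (hpos j)]; exact hns j
      calc h' j * (|c j - c' j| / (h j + h' j)) ≤ h' j * 1 :=
            mul_le_mul_of_nonneg_left this (hh' j).le
        _ = h' j := mul_one _
    exact_mod_cast this
  exact (Set.disjoint_left.mp hd h1) h2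

end Crest.Agent.Helper1
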