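import Mathlib
import Crest.Agent.BoxFlow.Defs
import Crest.Agent.Helper1.BoxFlowGeomA

/-!
# S0170, package W8c (helper1): exploding a configuration along the first axis
-/

set_option autoImplicit false

open Crest.AnalysisR.BoxFlow
open Crest.Agent.BoxFlow

namespace Crest.Agent.Helper1

variable {n : ℕ}

/-- The configuration obtained from `Z` by shifting the boxes with index in `T` along axis `0`
by the amounts `d i`. -/
def shifted (Z : Conf n) (T : Finset (Fin n)) (d : Fin n → ℚ) : Conf n :=
  ⟨fun i => if i ∈ T then Function.update (Z.c i) 0 (Z.c i 0 + d i) else Z.c i, Z.h⟩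

theorem shifted_empty (Z : Conf n) (d : Fin n → ℚ) : shifted Z ∅ d = Z := by
  apply conf_ext
  · funext i; simp [shifted]
  · rfl

theorem shifted_univ (Z : Conf n) (d : Fin n → ℚ) :
    shifted Z Finset.univ d = ⟨fun i => Function.update (Z.c i) 0 (Z.c i 0 + d i), Z.h⟩ := by
  apply conf_ext
  · funext i; simp [shifted]
  · rfl

theorem shifted_translate (Z : Conf n) (T : Finset (Fin n)) (d : Fin n → ℚ) (i₀ : Fin n)
    (hi₀ : i₀ ∉ T) (D : ℚ) :
    (shifted Z T d).translate i₀ 0 D = shifted Z (insert i₀ T) (Function.update d i₀ D) := by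
  apply conf_ext
  · funext i
    simp only [Conf.translate, shifted]
    by_cases hi : i = i₀
    · subst hi
      simp [hi₀]
    · rw [Function.update_of_ne hi]
      simp [hi]
  · rfl

theorem explode_valid (Z : Conf n) (hZ : Z.Pos) (hd : Z.Disj) (R : ℚ) (hR0 : 0 < R)
    (hR : ∀ i j, |Z.c i j| + Z.h i j ≤ R) (T : Finset (Fin n)) (d : Fin n → ℚ) (D : ℚ)
    (hD : 0 ≤ D) (hT : ∀ i ∈ T, D + 4 * R ≤ d i) (i₀ : Fin n) (hi₀ : i₀ ∉ T)
    (hmax : ∀ i ∉ T, Z.c i 0 + Z.h i 0 ≤ Z.c i₀ 0 + Z.h i₀ 0) :
    TransValid (shifted Z T d) i₀ 0 D := by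
  intro i' hi'
  have hc0 : (shifted Z T d).c i₀ = Z.c i₀ := by simp [shifted, hi₀]
  have hC : transHullC (shifted Z T d) i₀ 0 D = Function.update (Z.c i₀) 0 (Z.c i₀ 0 + D / 2) := by
    simp only [transHullC, hc0]
  have hH : transHullH (shifted Z T d) i₀ 0 D = Function.update (Z.h i₀) 0 (Z.h i₀ 0 + D / 2) := by
    simp only [transHullH, shifted, abs_of_nonneg hD]
  rw [hC, hH]
  have hh' : (shifted Z T d).h i' = Z.h i' := rfl
  rw [hh']
  by_cases hi'T : i' ∈ T
  · -- a box that has already been moved far to the right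
    have hc' : (shifted Z T d).c i' = Function.update (Z.c i') 0 (Z.c i' 0 + d i') := by
      simp [shifted, hi'T]
    rw [hc']
    refine ⟨0, ?_⟩
    simp only [Function.update_self]
    have h1 := hR i' 0
    have h2 := hR i₀ 0
    have h3 := hT i' hi'T
    have h4 : -(Z.c i' 0) ≤ |Z.c i' 0| := neg_le_abs _
    have h5 : Z.c i₀ 0 ≤ |Z.c i₀ 0| := le_abs_self _
    have h6 : Z.h i₀ 0 + D / 2 + Z.h i' 0 < -(Z.c i₀ 0 + D / 2 - (Z.c i' 0 + d i')) := by
      linarith
    exact lt_of_lt_of_le h6 (neg_le_abs _)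
  · -- an unmoved box
    have hc' : (shifted Z T d).c i' = Z.c i' := by simp [shifted, hi'T]
    rw [hc']
    obtain ⟨j, hj⟩ := hd i₀ i' (Ne.symm hi')
    by_cases hj0 : j = 0
    · subst hj0
      refine ⟨0, ?_⟩
      simp only [Function.update_self]
      have hm := hmax i' hi'T
      have hpos' := hZ i' 0
      -- the other box is to the left
      have hleft : Z.h i₀ 0 + Z.h i' 0 < Z.c i₀ 0 - Z.c i' 0 := by
        rcases le_or_gt 0 (Z.c i₀ 0 - Z.c i' 0) with h | h
        · rwa [abs_of_nonneg h] at hj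
        · rw [abs_of_neg h] at hj
          linarith
      have h6 : Z.h i₀ 0 + D / 2 + Z.h i' 0 < Z.c i₀ 0 + D / 2 - Z.c i' 0 := by linarith
      exact lt_of_lt_of_le h6 (le_abs_self _)
    · refine ⟨j, ?_⟩
      rw [Function.update_of_ne hj0, Function.update_of_ne hj0]
      exact hj

theorem explode_aux (Z : Conf n) (hZ : Z.Pos) (hd : Z.Disj) (R : ℚ) (hR0 : 0 < R)
    (hR : ∀ i j, |Z.c i j| + Z.h i j ≤ R) :
    ∀ m : ℕ, m ≤ n → ∃ (T : Finset (Fin n)) (d : Fin n → ℚ), T.card = m ∧
      (∀ i ∈ T, ((n : ℚ) - m + 1) * (4 * R) ≤ d i) ∧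
      (∀ i ∈ T, ∀ i' ∈ T, i ≠ i' → 4 * R ≤ |d i - d i'|) ∧ Reach Z (shifted Z T d) := by
  intro m
  induction m with
  | zero =>
    intro _
    refine ⟨∅, fun _ => 0, rfl, ?_, ?_, ?_⟩
    · intro i hi; simp at hi
    · intro i hi; simp at hi
    · rw [shifted_empty]; exact Reach.refl Z
  | succ m ih =>
    intro hm
    obtain ⟨T, d, hcard, hbig, hpair, hreach⟩ := ih (Nat.le_of_succ_le hm)
    have hne : (Tᶜ : Finset (Fin n)).Nonempty := by
      rw [← Finset.card_pos, Finset.card_compl, Fintype.card_fin, hcard]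
      omega
    obtain ⟨i₀, hi₀c, hmax⟩ := Finset.exists_max_image Tᶜ (fun i => Z.c i 0 + Z.h i 0) hne
    have hi₀ : i₀ ∉ T := Finset.mem_compl.mp hi₀c
    have hmn : (m : ℚ) + 1 ≤ n := by exact_mod_cast hm
    set D : ℚ := ((n : ℚ) - m) * (4 * R) with hDdef
    have hD : 0 ≤ D := by
      apply mul_nonneg
      · linarith
      · linarith
    have hT : ∀ i ∈ T, D + 4 * R ≤ d i := by
      intro i hi
      have := hbig i hi
      have e : D + 4 * R = ((n : ℚ) - m + 1) * (4 * R) := by rw [hDdef]; ring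
      rw [e]; exact this
    have hvalid := explode_valid Z hZ hd R hR0 hR T d D hD hT i₀ hi₀
      (fun i hi => hmax i (Finset.mem_compl.mpr hi))
    have hstep := reach_translate (shifted Z T d) i₀ 0 D (fun i j => hZ i j) hvalid
    rw [shifted_translate Z T d i₀ hi₀ D] at hstep
    refine ⟨insert i₀ T, Function.update d i₀ D, ?_, ?_, ?_, reach_trans hreach hstep⟩
    · rw [Finset.card_insert_of_notMem hi₀, hcard]
    · intro i hi
      have e : ((n : ℚ) - ((m + 1 : ℕ) : ℚ) + 1) * (4 * R) = D := by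
        rw [hDdef]; push_cast; ring
      rw [e]
      rcases Finset.mem_insert.mp hi with h | h
      · subst h; rw [Function.update_self]
      · have hne' : i ≠ i₀ := fun h' => hi₀ (h' ▸ h)
        rw [Function.update_of_ne hne']
        have := hT i h
        linarith
    · intro i hi i' hi' hii'
      rcases Finset.mem_insert.mp hi with h | h
      · rcases Finset.mem_insert.mp hi' with h' | h'
        · exact absurd (h.trans h'.symm) hii'
        · have hne' : i' ≠ i₀ := fun h'' => hi₀ (h'' ▸ h')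
          rw [h, Function.update_self, Function.update_of_ne hne']
          have := hT i' h'
          have h6 : 4 * R ≤ -(D - d i') := by linarith
          exact le_trans h6 (neg_le_abs _)
      · have hne1 : i ≠ i₀ := fun h'' => hi₀ (h'' ▸ h)
        rcases Finset.mem_insert.mp hi' with h' | h'
        · rw [h', Function.update_self, Function.update_of_ne hne1]
          have := hT i h
          have h6 : 4 * R ≤ d i - D := by linarith
          exact le_trans h6 (le_abs_self _)
        · have hne2 : i' ≠ i₀ := fun h'' => hi₀ (h'' ▸ h')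
          rw [Function.update_of_ne hne1, Function.update_of_ne hne2]
          exact hpair i h i' h' hii'

/-- **Explode.** Every positive, pairwise separated configuration inside `[-R, R]^3` can be moved
to a configuration in which the boxes are shifted along the first axis by amounts that are pairwise
at least `4 * R` apart. -/
theorem reach_explode (Z : Conf n) (hZ : Z.Pos) (hd : Z.Disj) (R : ℚ)
    (hR : ∀ i j, |Z.c i j| + Z.h i j ≤ R) :
    ∃ d : Fin n → ℚ, (∀ i i', i ≠ i' → 4 * R ≤ |d i - d i'|) ∧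
      Reach Z ⟨fun i => Function.update (Z.c i) 0 (Z.c i 0 + d i), Z.h⟩ := by
  rcases isEmpty_or_nonempty (Fin n) with hE | hN
  · refine ⟨fun _ => 0, fun i => (hE.false i).elim, ?_⟩
    have : Z = ⟨fun i => Function.update (Z.c i) 0 (Z.c i 0 + (fun _ => (0 : ℚ)) i), Z.h⟩ :=
      conf_ext (funext fun i => (hE.false i).elim) rfl
    rw [← this]
    exact Reach.refl Z
  · obtain ⟨i₁⟩ := hN
    have hR0 : 0 < R := by
      have h1 := hR i₁ 0
      have h2 := hZ i₁ 0
      have h3 := abs_nonneg (Z.c i₁ 0)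
      linarith
    obtain ⟨T, d, hcard, -, hpair, hreach⟩ := explode_aux Z hZ hd R hR0 hR n le_rfl
    have hTu : T = Finset.univ := by
      rw [← Finset.card_eq_iff_eq_univ, hcard, Fintype.card_fin]
    subst hTu
    rw [shifted_univ] at hreach
    exact ⟨d, fun i i' hii' => hpair i (Finset.mem_univ _) i' (Finset.mem_univ _) hii', hreach⟩

end Crest.Agent.Helper1
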