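import Mathlib
import Crest.Agent.BoxFlow.Defs
import Crest.Agent.Helper1.BoxFlowGeomA
import Crest.Agent.Helper1.BoxFlowGeomC
import Crest.Agent.Lead.BoxFlowSlab

/-!
# S0170, package W8d (helper1): any two positive, pairwise separated configurations with the same
box volumes are connected by valid elementary moves
-/

set_option autoImplicit false

open Crest.AnalysisR.BoxFlow
open Crest.Agent.BoxFlow

namespace Crest.Agent.Helper1

variable {n : ℕ}

/-- The canonical parked configuration: box `i` has centre `(0, (i+1) * 4R, 0)` and shape `k i`. -/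
def parked (R : ℚ) (k : Fin n → Fin 3 → ℚ) : Conf n :=
  ⟨fun i => ![0, ((i : ℕ) + 1 : ℚ) * (4 * R), 0], k⟩

theorem reach_parked (Z : Conf n) (hZ : Z.Pos) (hd : Z.Disj) (R : ℚ) (hR0 : 0 < R)
    (hR : ∀ i j, |Z.c i j| + Z.h i j ≤ R) (k : Fin n → Fin 3 → ℚ) (hk : ∀ i j, 0 < k i j)
    (hkR : ∀ i j, k i j ≤ R) (hvol : ∀ i, ∏ j : Fin 3, k i j / Z.h i j = 1) :
    Reach Z (parked R k) := by
  obtain ⟨d, hdsep, hreach1⟩ := reach_explode Z hZ hd R hR
  have h12 : Reach (⟨fun i => Function.update (Z.c i) 0 (Z.c i 0 + d i), Z.h⟩ : Conf n)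
      (⟨fun i => ![d i, ((i : ℕ) + 1 : ℚ) * (4 * R), 0], k⟩ : Conf n) := by
    apply Crest.Agent.Lead.reach_centered 0 d R
    · intro i i' hii'
      have := hdsep i i' hii'
      linarith
    · exact hZ
    · exact hk
    · intro i
      simp only [Function.update_self]
      have e : Z.c i 0 + d i - d i = Z.c i 0 := by ring
      rw [e]
      exact hR i 0
    · intro i
      exact ⟨by simp, hkR i 0⟩
    · exact hvol
  have h23 : Reach (⟨fun i => ![d i, ((i : ℕ) + 1 : ℚ) * (4 * R), 0], k⟩ : Conf n)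
      (parked R k) := by
    apply Crest.Agent.Lead.reach_centered 1 (fun i => ((i : ℕ) + 1 : ℚ) * (4 * R)) R
    · intro i i' hii'
      have hne : (i : ℕ) ≠ (i' : ℕ) := Fin.val_ne_of_ne hii'
      have e : ((i : ℕ) + 1 : ℚ) * (4 * R) - ((i' : ℕ) + 1 : ℚ) * (4 * R)
          = (((i : ℕ) : ℚ) - ((i' : ℕ) : ℚ)) * (4 * R) := by ring
      rw [e, abs_mul, abs_of_pos (by linarith : (0 : ℚ) < 4 * R)]
      have h1 : (1 : ℚ) ≤ |((i : ℕ) : ℚ) - ((i' : ℕ) : ℚ)| := by
        rcases lt_or_gt_of_ne hne with h | h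
        · have h' : ((i : ℕ) : ℚ) + 1 ≤ ((i' : ℕ) : ℚ) := by exact_mod_cast h
          have h6 : (1 : ℚ) ≤ -(((i : ℕ) : ℚ) - ((i' : ℕ) : ℚ)) := by linarith
          exact le_trans h6 (neg_le_abs _)
        · have h' : ((i' : ℕ) : ℚ) + 1 ≤ ((i : ℕ) : ℚ) := by exact_mod_cast h
          have h6 : (1 : ℚ) ≤ ((i : ℕ) : ℚ) - ((i' : ℕ) : ℚ) := by linarith
          exact le_trans h6 (le_abs_self _)
      have h2 : 1 * (4 * R) ≤ |((i : ℕ) : ℚ) - ((i' : ℕ) : ℚ)| * (4 * R) :=
        mul_le_mul_of_nonneg_right h1 (by linarith)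
      linarith
    · exact hk
    · exact hk
    · intro i
      simp only [Matrix.cons_val_one, Matrix.cons_val_zero, sub_self, abs_zero, zero_add]
      exact hkR i 1
    · intro i
      exact ⟨by simp [parked], hkR i 1⟩
    · intro i
      apply Finset.prod_eq_one
      intro j _
      exact div_self (hk i j).ne'
  exact reach_trans hreach1 (reach_trans h12 h23)

/-- **Geometry of S0170.** Two positive, pairwise separated configurations whose corresponding
boxes have equal volumes are connected by finitely many valid elementary moves. -/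
theorem reach_of_disjoint (X Y : Conf n) (hX : X.Pos) (hXd : X.Disj) (hY : Y.Pos) (hYd : Y.Disj)
    (hvol : ∀ i, ∏ j : Fin 3, Y.h i j / X.h i j = 1) : Reach X Y := by
  set F : Fin n → Fin 3 → ℚ := fun i j => |X.c i j| + X.h i j + |Y.c i j| + Y.h i j with hF
  set R : ℚ := 1 + ∑ i, ∑ j, F i j with hRdef
  have hF0 : ∀ i j, 0 ≤ F i j := by
    intro i j
    have h1 := abs_nonneg (X.c i j)
    have h2 := abs_nonneg (Y.c i j)
    have h3 := hX i j
    have h4 := hY i j
    simp only [hF]
    linarith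
  have hFle : ∀ i j, F i j ≤ ∑ i, ∑ j, F i j := by
    intro i j
    calc F i j ≤ ∑ j, F i j :=
          Finset.single_le_sum (f := fun j => F i j) (fun j _ => hF0 i j) (Finset.mem_univ j)
      _ ≤ ∑ i, ∑ j, F i j :=
          Finset.single_le_sum (f := fun i => ∑ j, F i j)
            (fun i _ => Finset.sum_nonneg (fun j _ => hF0 i j)) (Finset.mem_univ i)
  have hS0 : 0 ≤ ∑ i, ∑ j, F i j :=
    Finset.sum_nonneg (fun i _ => Finset.sum_nonneg (fun j _ => hF0 i j))
  have hR0 : 0 < R := by rw [hRdef]; linarith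
  have hXR : ∀ i j, |X.c i j| + X.h i j ≤ R := by
    intro i j
    have h1 := hFle i j
    have h2 := abs_nonneg (Y.c i j)
    have h4 := hY i j
    simp only [hF] at h1
    rw [hRdef]; linarith
  have hYR : ∀ i j, |Y.c i j| + Y.h i j ≤ R := by
    intro i j
    have h1 := hFle i j
    have h2 := abs_nonneg (X.c i j)
    have h4 := hX i j
    simp only [hF] at h1
    rw [hRdef]; linarith
  have hkR : ∀ i j, Y.h i j ≤ R := by
    intro i j
    have h1 := hYR i j
    have h2 := abs_nonneg (Y.c i j)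
    linarith
  have h1 : Reach X (parked R Y.h) := reach_parked X hX hXd R hR0 hXR Y.h hY hkR hvol
  have h2 : Reach Y (parked R Y.h) :=
    reach_parked Y hY hYd R hR0 hYR Y.h hY hkR
      (fun i => Finset.prod_eq_one (fun j _ => div_self (hY i j).ne'))
  exact reach_trans h1 (reach_symm h2)

end Crest.Agent.Helper1
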