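import Mathlib

/-!
# Row 211 / S0326 (helper1): the frame of a trace-free endomorphism of the plane

A trace-free endomorphism `A` of the Euclidean plane has an orthonormal frame `b` with
`⟪b k, A (b k)⟫ = 0` for `k = 0, 1`; in this frame `det A = -⟪b 0, A (b 1)⟫ ⟪b 1, A (b 0)⟫`.
-/

set_option autoImplicit false

namespace Crest.Agent.Helper1

/-- The Euclidean plane. -/
abbrev E2 := EuclideanSpace ℝ (Fin 2)

/-- The unit vector at angle `θ`. -/
noncomputable def fθ (θ : ℝ) : E2 := !₂[Real.cos θ, Real.sin θ]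

/-- The unit vector at angle `θ + π/2`. -/
noncomputable def gθ (θ : ℝ) : E2 := !₂[-Real.sin θ, Real.cos θ]

theorem inner2 (a b : E2) : inner ℝ a b = a 0 * b 0 + a 1 * b 1 := by
  simp only [PiLp.inner_apply, RCLike.inner_apply, conj_trivial, Fin.sum_univ_two]
  ring

theorem orthonormal_fg (θ : ℝ) : Orthonormal ℝ ![fθ θ, gθ θ] := by
  rw [orthonormal_iff_ite]
  intro i j
  have h := Real.sin_sq_add_cos_sq θ
  fin_cases i <;> fin_cases j
  · show inner ℝ (fθ θ) (fθ θ) = 1
    rw [inner2]; simp only [fθ]; simp; nlinarith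
  · show inner ℝ (fθ θ) (gθ θ) = 0
    rw [inner2]; simp only [fθ, gθ]; simp; ring
  · show inner ℝ (gθ θ) (fθ θ) = 0
    rw [inner2]; simp only [fθ, gθ]; simp; ring
  · show inner ℝ (gθ θ) (gθ θ) = 1
    rw [inner2]; simp only [gθ]; simp; nlinarith

/-- The orthonormal basis `(fθ θ, gθ θ)`. -/
noncomputable def frameBasis (θ : ℝ) : OrthonormalBasis (Fin 2) ℝ E2 :=
  OrthonormalBasis.mk (orthonormal_fg θ) (by
    have h := (orthonormal_fg θ).linearIndependent.span_eq_top_of_card_eq_finrank' (by simp)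
    exact le_of_eq h.symm)

theorem frameBasis_zero (θ : ℝ) : frameBasis θ 0 = fθ θ := by
  simp [frameBasis]

theorem frameBasis_one (θ : ℝ) : frameBasis θ 1 = gθ θ := by
  simp [frameBasis]

theorem continuous_fθ : Continuous fθ := by
  unfold fθ
  fun_prop

theorem exists_frame_trace_zero (A : E2 →L[ℝ] E2)
    (htr : LinearMap.trace ℝ E2 A.toLinearMap = 0) :
    ∃ b : OrthonormalBasis (Fin 2) ℝ E2, inner ℝ (b 0) (A (b 0)) = 0 ∧
      inner ℝ (b 1) (A (b 1)) = 0 ∧
      LinearMap.det A.toLinearMap = -(inner ℝ (b 0) (A (b 1)) * inner ℝ (b 1) (A (b 0))) := by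
  -- the quadratic form along the circle
  set φ : ℝ → ℝ := fun θ => inner ℝ (fθ θ) (A (fθ θ)) with hφ
  have hcont : Continuous φ := by
    rw [hφ]
    have := continuous_fθ
    fun_prop
  have htrace : ∀ θ, φ θ + inner ℝ (gθ θ) (A (gθ θ)) = 0 := by
    intro θ
    have h := LinearMap.trace_eq_sum_inner A.toLinearMap (frameBasis θ)
    rw [htr, Fin.sum_univ_two, frameBasis_zero, frameBasis_one] at h
    simpa [hφ] using h.symm
  have hg0 : gθ 0 = fθ (Real.pi / 2) := by
    simp [gθ, fθ]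
  have hφ2 : φ (Real.pi / 2) = -φ 0 := by
    have h := htrace 0
    rw [hg0] at h
    have : φ (Real.pi / 2) = inner ℝ (fθ (Real.pi / 2)) (A (fθ (Real.pi / 2))) := rfl
    linarith
  have hpi : (0 : ℝ) ≤ Real.pi / 2 := by positivity
  obtain ⟨θ₀, -, hθ₀⟩ : ∃ θ₀ ∈ Set.Icc (0 : ℝ) (Real.pi / 2), φ θ₀ = 0 := by
    rcases le_total (φ 0) 0 with h | h
    · have hmem : (0 : ℝ) ∈ Set.Icc (φ 0) (φ (Real.pi / 2)) := by
        rw [hφ2]; exact ⟨h, by linarith⟩
      exact intermediate_value_Icc hpi hcont.continuousOn hmem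
    · have hmem : (0 : ℝ) ∈ Set.Icc (φ (Real.pi / 2)) (φ 0) := by
        rw [hφ2]; exact ⟨by linarith, h⟩
      exact intermediate_value_Icc' hpi hcont.continuousOn hmem
  refine ⟨frameBasis θ₀, ?_, ?_, ?_⟩
  · rw [frameBasis_zero]; exact hθ₀
  · rw [frameBasis_one]
    have := htrace θ₀
    linarith
  · have h00 : inner ℝ (frameBasis θ₀ 0) (A (frameBasis θ₀ 0)) = 0 := by
      rw [frameBasis_zero]; exact hθ₀
    have h11 : inner ℝ (frameBasis θ₀ 1) (A (frameBasis θ₀ 1)) = 0 := by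
      rw [frameBasis_one]
      have := htrace θ₀
      linarith
    rw [← LinearMap.det_toMatrix (frameBasis θ₀).toBasis, Matrix.det_fin_two]
    simp only [LinearMap.toMatrix_apply, OrthonormalBasis.coe_toBasis,
      OrthonormalBasis.coe_toBasis_repr_apply, OrthonormalBasis.repr_apply_apply,
      ContinuousLinearMap.coe_coe]
    rw [h00, h11]
    ring

end Crest.Agent.Helper1
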